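import Vale.Agent.P181.R2.H556.PosComp

/-!
P181: rows C2 - C6 (seeds for the odd classes of gaps), from the computable criterion.
-/

set_option autoImplicit false

open MvPolynomial

namespace Vale.Agent.P181.H556C

open Vale.Agent.P181 Vale.Agent.P181.H280 Vale.Agent.P181.H553 Vale.Agent.P181.FR

/-- Row C0. -/
def RowC0 : Prop := ∀ {r c : ℕ} {lam : Fin 3 → ℕ} (Q : MvPolynomial (Fin r × Fin 3) ℂ),
  Multi c r Q → Semi lam Q → ∀ p : Fin r → Pt,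
    ∑ σ : Equiv.Perm (Fin r), evp Q (fun l => p (σ l)) ≠ 0 → Pos r c 3 lam

/-- Data. -/
def lev_five33 : List (List Fac) :=
  [[],
   [],
   [.b 0 1 2 5],
   [.b 0 1 3 9, .b 0 2 3 3, .b 1 2 3 5],
   [.b 0 1 4 1, .b 0 2 4 7, .b 0 3 4 8, .b 1 2 4 9, .b 1 3 4 4, .b 2 3 4 4]]

/-- Points. -/
def pts_five33 : Fin 5 → P3 :=
  ![(1, 1, 1), (1, 1, 2), (0, -1, -1), (0, 1, 2), (1, -1, 2)]

theorem pos_five33 (C0 : RowC0) : Pos 5 33 3 ![55, 55, 55] :=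
  pos_of_data C0 lev_five33 pts_five33 _ (by decide) (by decide) (by decide) (by decide) (by decide)
    (by decide +kernel)

/-- Data. -/
def lev_five20 : List (List Fac) :=
  [[],
   [],
   [.b 0 1 2 1, .x 2 1],
   [.b 0 1 3 2, .b 0 2 3 5, .b 1 2 3 5],
   [.b 0 1 4 9, .b 0 2 4 3, .b 1 3 4 3, .b 2 3 4 5]]

/-- Points. -/
def pts_five20 : Fin 5 → P3 :=
  ![(1, 1, -3), (1, -1, -1), (1, -1, -3), (1, -1, 3), (1, 0, 3)]

theorem pos_five20 (C0 : RowC0) : Pos 5 20 3 ![34, 33, 33] :=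
  pos_of_data C0 lev_five20 pts_five20 _ (by decide) (by decide) (by decide) (by decide) (by decide)
    (by decide +kernel)

/-- Data. -/
def lev_five16 : List (List Fac) :=
  [[],
   [],
   [.b 0 1 2 4],
   [.b 0 1 3 2, .b 0 2 3 4, .m 0 3 1],
   [.b 0 1 4 2, .b 0 2 4 1, .b 0 3 4 2, .b 1 2 4 4, .b 1 3 4 4, .b 2 3 4 3]]

/-- Points. -/
def pts_five16 : Fin 5 → P3 :=
  ![(1, -1, -2), (1, 1, 2), (1, -1, 0), (0, 1, 1), (0, -1, 2)]

theorem pos_five16 (C0 : RowC0) : Pos 5 16 3 ![27, 27, 26] :=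
  pos_of_data C0 lev_five16 pts_five16 _ (by decide) (by decide) (by decide) (by decide) (by decide)
    (by decide +kernel)

/-- Data. -/
def lev_seven10 : List (List Fac) :=
  [[],
   [],
   [],
   [.b 0 2 3 1, .b 1 2 3 3],
   [.b 0 2 4 1],
   [.b 1 3 5 4, .b 1 4 5 1, .b 2 3 5 1, .b 2 4 5 1, .b 3 4 5 1, .x 5 1],
   [.b 0 1 6 2, .b 0 2 6 1, .b 0 4 6 4, .b 0 5 6 1, .b 2 4 6 2]]

/-- Points. -/
def pts_seven10 : Fin 7 → P3 :=
  ![(0, 1, 0), (1, 1, 0), (0, 1, 1), (1, 0, 0), (1, 1, 0), (1, 0, 1), (0, 0, 1)]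

theorem pos_seven10 (C0 : RowC0) : Pos 7 10 3 ![24, 23, 23] :=
  pos_of_data C0 lev_seven10 pts_seven10 _ (by decide) (by decide) (by decide) (by decide) (by decide)
    (by decide +kernel)

/-- Data. -/
def lev_seven8 : List (List Fac) :=
  [[],
   [],
   [],
   [.b 0 1 3 2, .b 1 2 3 2],
   [.b 2 3 4 2],
   [.b 0 1 5 1, .b 0 4 5 1, .b 1 3 5 1, .b 2 3 5 1, .b 2 4 5 1],
   [.b 0 4 6 3, .b 0 5 6 1, .b 1 5 6 1, .b 2 4 6 1, .b 2 5 6 1, .m 1 6 1]]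

/-- Points. -/
def pts_seven8 : Fin 7 → P3 :=
  ![(1, 1, 0), (1, 1, 0), (0, 0, 2), (0, 1, -1), (0, -1, 1), (1, 1, -1), (1, 0, 0)]

theorem pos_seven8 (C0 : RowC0) : Pos 7 8 3 ![19, 19, 18] :=
  pos_of_data C0 lev_seven8 pts_seven8 _ (by decide) (by decide) (by decide) (by decide) (by decide)
    (by decide +kernel)

end Vale.Agent.P181.H556C
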